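import Vale.Agent.P213.KQ.Closure

/-!
# P213, classical input: coproducts and sequential colimits of weak equivalences
-/

open CategoryTheory Limits MonoidalCategory CartesianMonoidalCategory MonoidalClosed Simplicial
  HomotopicalAlgebra Opposite
open SSet.modelCategoryQuillen

noncomputable section

namespace Vale.Agent.P213.KQ

/-- Homotopies on the summands give a homotopy on the coproduct. -/
theorem htpc_sigma {ι : Type} {A : ι → SSet.{0}} {K : SSet.{0}} {f g : ∐ A ⟶ K}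
    (h : ∀ i, Htpc (Sigma.ι A i ≫ f) (Sigma.ι A i ≫ g)) : Htpc f g := by
  choose H hH₀ hH₁ using fun i => htpc_iff.1 (h i)
  let T : ∀ i, A i ⟶ (ihom (Δ[1] : SSet.{0})).obj K := fun i =>
    MonoidalClosed.curry ((β_ _ _).hom ≫ H i)
  let H' : (∐ A) ⊗ Δ[1] ⟶ K := (β_ _ _).hom ≫ MonoidalClosed.uncurry (Sigma.desc T)
  have key : ∀ i, Sigma.ι A i ▷ Δ[1] ≫ H' = H i := by
    intro i
    simp only [H']
    rw [BraidedCategory.braiding_naturality_left_assoc, ← MonoidalClosed.uncurry_natural_left,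
      Sigma.ι_desc, MonoidalClosed.uncurry_curry, ← Category.assoc,
      SymmetricCategory.symmetry, Category.id_comp]
  refine htpc_iff.2 ⟨H', ?_, ?_⟩ <;> refine Limits.Sigma.hom_ext _ _ fun i => ?_
  · rw [← SSet.ι₀_comp_assoc, key, hH₀]
  · rw [← SSet.ι₁_comp_assoc, key, hH₁]

theorem weakEq_sigmaMap {ι : Type} {A B : ι → SSet.{0}} (f : ∀ i, A i ⟶ B i)
    (hf : ∀ i, weakEq (f i)) : weakEq (Limits.Sigma.map f) := by
  rw [weakEq_iff]
  intro K _
  refine ⟨fun g => ?_, fun g g' h => htpc_sigma fun i => ?_⟩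
  · choose g' hg' using fun i => ((weakEq_iff.1 (hf i)) K).1 (Sigma.ι A i ≫ g)
    refine ⟨Sigma.desc g', htpc_sigma fun i => ?_⟩
    rw [Sigma.ι_map_assoc, Sigma.ι_desc]
    exact hg' i
  · apply ((weakEq_iff.1 (hf i)) K).2
    have := htpc_comp_left (Sigma.ι A i) h
    rwa [Sigma.ι_map_assoc, Sigma.ι_map_assoc] at this

/-! ## Sequential colimits -/

section Chain

variable {X Y : ℕ ⥤ SSet.{0}} (ψ : X ⟶ Y)

/-- A stage of the resolution of a natural transformation of chains. -/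
structure Stage (n : ℕ) : Type 1 where
  /-- the middle object -/
  M : SSet.{0}
  /-- the trivial cofibration -/
  j : X.obj n ⟶ M
  /-- the trivial fibration -/
  π : M ⟶ Y.obj n
  mono : Mono j
  we : weakEq j
  triv : TrivFib π
  fac : j ≫ π = ψ.app n

theorem exists_stage_zero (h : ∀ n, weakEq (ψ.app n)) : Nonempty (Stage ψ 0) := by
  obtain ⟨M, j, π, hj, hπ, e⟩ := exists_factor (ψ.app 0)
  exact ⟨⟨M, j, π, hj, weakEq_of_comp_right (weakEq_of_trivFib π hπ) (e ▸ h 0), hπ, e⟩⟩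

/-- The data of one step. -/
structure Step {n : ℕ} (S : Stage ψ n) : Type 1 where
  /-- the next stage -/
  next : Stage ψ (n + 1)
  /-- the map between stages -/
  m : S.M ⟶ next.M
  /-- the map from the pushout -/
  l : pushout S.j (X.map (homOfLE n.le_succ)) ⟶ next.M
  inl_l : pushout.inl _ _ ≫ l = m
  inr_l : pushout.inr _ _ ≫ l = next.j
  l_mono : Mono l
  l_we : weakEq l
  m_π : m ≫ next.π = S.π ≫ Y.map (homOfLE n.le_succ)

theorem exists_step (hX : ∀ n, Mono (X.map (homOfLE n.le_succ : n ⟶ n + 1)))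
    (h : ∀ n, weakEq (ψ.app n)) {n : ℕ} (S : Stage ψ n) : Nonempty (Step ψ S) := by
  have := hX n
  have := S.mono
  have q := IsPushout.of_hasPushout S.j (X.map (homOfLE n.le_succ : n ⟶ n + 1))
  let w := q.desc (S.π ≫ Y.map (homOfLE n.le_succ)) (ψ.app (n + 1))
    (by rw [← Category.assoc, S.fac, ψ.naturality])
  obtain ⟨M, l, π, hl, hπ, e⟩ := exists_factor w
  have hinr : weakEq (pushout.inr S.j (X.map (homOfLE n.le_succ : n ⟶ n + 1))) :=
    weakEq_pushout S.j _ _ _ q.flip S.we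
  have := mono_of_isPushout q.flip
  have hwq : weakEq w := weakEq_of_comp_left hinr (by rw [q.inr_desc]; exact h _)
  have hlw : weakEq l := weakEq_of_comp_right (weakEq_of_trivFib π hπ) (e ▸ hwq)
  exact ⟨⟨⟨M, pushout.inr _ _ ≫ l, π, mono_comp _ _, weakEq_comp hinr hlw, hπ,
    by rw [Category.assoc, e, q.inr_desc]⟩, pushout.inl _ _ ≫ l, l, rfl, rfl, hl, hlw,
    by rw [Category.assoc, e, q.inl_desc]⟩⟩

variable (hX : ∀ n, Mono (X.map (homOfLE n.le_succ : n ⟶ n + 1))) (h : ∀ n, weakEq (ψ.app n))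

/-- The stages. -/
def stage (n : ℕ) : Stage ψ n :=
  Nat.rec (exists_stage_zero ψ h).some (fun _ S => (exists_step ψ hX h S).some.next) n

/-- The steps. -/
def step (n : ℕ) : Step ψ (stage ψ hX h n) := (exists_step ψ hX h (stage ψ hX h n)).some

/-- The maps of the resolving chain. -/
def midMap (n : ℕ) : (stage ψ hX h n).M ⟶ (stage ψ hX h (n + 1)).M := (step ψ hX h n).m

/-- The resolving chain. -/
def mid : ℕ ⥤ SSet.{0} := Functor.ofSequence (midMap ψ hX h)

theorem mid_map_succ (n : ℕ) :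
    (mid ψ hX h).map (homOfLE n.le_succ : n ⟶ n + 1) = midMap ψ hX h n :=
  Functor.ofSequence_map_homOfLE_succ _ n

/-- The first leg. -/
def midJ : X ⟶ mid ψ hX h :=
  NatTrans.ofSequence (fun n => (stage ψ hX h n).j) fun n => by
    rw [mid_map_succ]
    change X.map _ ≫ (step ψ hX h n).next.j = _ ≫ (step ψ hX h n).m
    rw [← (step ψ hX h n).inr_l, ← (step ψ hX h n).inl_l, ← Category.assoc, ← pushout.condition,
      Category.assoc]

/-- The second leg. -/
def midπ : mid ψ hX h ⟶ Y :=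
  NatTrans.ofSequence (fun n => (stage ψ hX h n).π) fun n => by
    rw [mid_map_succ]
    exact (step ψ hX h n).m_π

theorem mid_fac (n : ℕ) : (midJ ψ hX h).app n ≫ (midπ ψ hX h).app n = ψ.app n :=
  (stage ψ hX h n).fac

/-- Lifting against a colimit of the first leg. -/
theorem lift_midJ {cX : Cocone X} (hcX : IsColimit cX) {cM : Cocone (mid ψ hX h)}
    (hcM : IsColimit cM) (j : cX.pt ⟶ cM.pt)
    (hj : ∀ n, cX.ι.app n ≫ j = (midJ ψ hX h).app n ≫ cM.ι.app n)
    {E B : SSet.{0}} (p : E ⟶ B) (hp : ∀ {A C : SSet.{0}} (i : A ⟶ C) [Mono i],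
      weakEq i → HasLiftingProperty i p) : HasLiftingProperty j p := by
  refine ⟨fun {u v} sq => ?_⟩
  let M : ℕ → SSet.{0} := fun n => (stage ψ hX h n).M
  let Good : ∀ n, (M n ⟶ E) → Prop := fun n a =>
    (stage ψ hX h n).j ≫ a = cX.ι.app n ≫ u ∧ a ≫ p = cM.ι.app n ≫ v
  have base : ∃ a, Good 0 a := by
    have := (stage ψ hX h 0).mono
    have := hp (stage ψ hX h 0).j (stage ψ hX h 0).we
    have sq0 : CommSq (cX.ι.app 0 ≫ u) (stage ψ hX h 0).j p (cM.ι.app 0 ≫ v) :=
      ⟨by rw [Category.assoc, sq.w, ← Category.assoc, hj, Category.assoc]; rfl⟩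
    exact ⟨sq0.lift, sq0.fac_left, sq0.fac_right⟩
  have next : ∀ n a, Good n a → ∃ a', Good (n + 1) a' ∧ midMap ψ hX h n ≫ a' = a := by
    rintro n a ⟨ha₁, ha₂⟩
    let S := step ψ hX h n
    have := S.l_mono
    have := hp S.l S.l_we
    have sqn : CommSq (pushout.desc a (cX.ι.app (n + 1) ≫ u)
        (by rw [ha₁, ← Category.assoc, cX.w])) S.l p (cM.ι.app (n + 1) ≫ v) := by
      constructor
      apply pushout.hom_ext
      · rw [pushout.inl_desc_assoc, ha₂, ← Category.assoc, S.inl_l]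
        have hm : cM.ι.app n = (mid ψ hX h).map (homOfLE n.le_succ) ≫ cM.ι.app (n + 1) :=
          (cM.w _).symm
        rw [mid_map_succ] at hm
        exact (congrArg (· ≫ v) hm).trans (Category.assoc _ _ _)
      · rw [pushout.inr_desc_assoc, Category.assoc, sq.w, ← Category.assoc, hj, ← Category.assoc,
          S.inr_l]
        rfl
    refine ⟨sqn.lift, ⟨?_, sqn.fac_right⟩, ?_⟩
    · change S.next.j ≫ _ = _
      rw [← S.inr_l, Category.assoc, sqn.fac_left, pushout.inr_desc]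
    · change S.m ≫ _ = _
      rw [← S.inl_l, Category.assoc, sqn.fac_left, pushout.inl_desc]
  choose f hf₁ hf₂ using next
  let a : ∀ n, { a : M n ⟶ E // Good n a } := fun n =>
    Nat.rec ⟨base.choose, base.choose_spec⟩ (fun n a => ⟨f n a.1 a.2, hf₁ n a.1 a.2⟩) n
  let ι : mid ψ hX h ⟶ (Functor.const ℕ).obj E :=
    NatTrans.ofSequence (fun n => (a n).1) fun n => by
      rw [mid_map_succ]
      exact (hf₂ n _ _).trans (Category.comp_id _).symm
  let c : Cocone (mid ψ hX h) := ⟨E, ι⟩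
  refine ⟨⟨⟨hcM.desc c, hcX.hom_ext fun n => ?_, hcM.hom_ext fun n => ?_⟩⟩⟩
  · rw [← Category.assoc, hj, Category.assoc, hcM.fac]
    exact (a n).2.1
  · rw [← Category.assoc, hcM.fac]
    exact (a n).2.2

include hX h in
/-- A map of sequential colimits is a weak equivalence if it is one at each stage and the
transition maps of the source are monomorphisms. -/
theorem weakEq_chain {cX : Cocone X} (hcX : IsColimit cX) {cY : Cocone Y} (hcY : IsColimit cY)
    (φ : cX.pt ⟶ cY.pt) (hφ : ∀ n, cX.ι.app n ≫ φ = ψ.app n ≫ cY.ι.app n) : weakEq φ := by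
  let cM := colimit.cocone (mid ψ hX h)
  let hcM := colimit.isColimit (mid ψ hX h)
  let j := hcX.desc ((Cocone.precompose (midJ ψ hX h)).obj cM)
  let π := hcM.desc ((Cocone.precompose (midπ ψ hX h)).obj cY)
  have hj : ∀ n, cX.ι.app n ≫ j = (midJ ψ hX h).app n ≫ cM.ι.app n := fun n => hcX.fac _ n
  have hπ : ∀ n, cM.ι.app n ≫ π = (midπ ψ hX h).app n ≫ cY.ι.app n := fun n => hcM.fac _ n
  have e : φ = j ≫ π := hcX.hom_ext fun n => by
    rw [hφ, ← Category.assoc, hj, Category.assoc, hπ, ← Category.assoc, mid_fac]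
  have hjw : weakEq j := weakEq_of_trivFib_pre fun K _ => by
    rw [trivFib_iff]
    rintro _ _ _ ⟨n⟩
    refine (lift_pre_iff j _ K).2 (lift_midJ ψ hX h hcX hcM j hj _ fun i _ hi => ?_)
    exact (lift_pre_iff i _ K).1
      (trivFib_pre hi K _ (MorphismProperty.monomorphisms.infer_property _))
  have hπw : weakEq π := by
    refine weakEq_of_trivFib π ?_
    rw [trivFib_iff]
    rintro _ _ _ ⟨m⟩
    refine ⟨fun {u v} sq => ?_⟩
    obtain ⟨n₁, u', hu⟩ := IsFinitelyPresentable.exists_hom_of_isColimit hcM u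
    obtain ⟨n₂, v', hv⟩ := IsFinitelyPresentable.exists_hom_of_isColimit hcY v
    let n := max n₁ n₂
    let u₂ := u' ≫ (mid ψ hX h).map (homOfLE (le_max_left n₁ n₂))
    clear X Y
    let v₂ := v' ≫ Y.map (homOfLE (le_max_right n₁ n₂))
    have hu₂ : u₂ ≫ cM.ι.app n = u := by rw [Category.assoc, cM.w, hu]
    have hv₂ : v₂ ≫ cY.ι.app n = v := by rw [Category.assoc, cY.w, hv]
    have : (u₂ ≫ (midπ ψ hX h).app n) ≫ cY.ι.app n = (∂Δ[m].ι ≫ v₂) ≫ cY.ι.app n := by
      rw [Category.assoc, ← hπ, ← Category.assoc, hu₂, Category.assoc, hv₂, sq.w]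
    obtain ⟨k, a, b, hab⟩ := IsFinitelyPresentable.exists_eq_of_isColimit hcY _ _ this
    have sqk : CommSq (u₂ ≫ (mid ψ hX h).map a) ∂Δ[m].ι ((midπ ψ hX h).app k) (v₂ ≫ Y.map a) :=
      ⟨by rw [Category.assoc, (midπ ψ hX h).naturality, ← Category.assoc, hab,
        Subsingleton.elim b a, Category.assoc]⟩
    have := (stage ψ hX h k).triv ∂Δ[m].ι (MorphismProperty.monomorphisms.infer_property _)
    have := (show HasLiftingProperty ∂Δ[m].ι ((midπ ψ hX h).app k) from this)
    refine ⟨⟨⟨sqk.lift ≫ cM.ι.app k, ?_, ?_⟩⟩⟩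
    · rw [← Category.assoc, sqk.fac_left, Category.assoc, cM.w, hu₂]
    · rw [Category.assoc, hπ, ← Category.assoc, sqk.fac_right, Category.assoc, cY.w, hv₂]
  rw [e]
  exact weakEq_comp hjw hπw

end Chain

end Vale.Agent.P213.KQ
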