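import Vale.Agent.P213.KQ.Defs

/-!
# P213, classical input: closure properties of weak equivalences
-/

open CategoryTheory Limits MonoidalCategory CartesianMonoidalCategory MonoidalClosed Simplicial
  HomotopicalAlgebra Opposite
open SSet.modelCategoryQuillen

noncomputable section

namespace Vale.Agent.P213.KQ

variable {A B X Y Z K : SSet.{0}}

/-! ## Mapping spaces -/

theorem htpc_curry {L : SSet.{0}} {f g : L ⊗ X ⟶ K} (h : Htpc f g) :
    Htpc (MonoidalClosed.curry f) (MonoidalClosed.curry g) := by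
  obtain ⟨H, rfl, rfl⟩ := htpc_iff.1 h
  refine htpc_iff.2 ⟨MonoidalClosed.curry ((α_ L X Δ[1]).inv ≫ H), ?_, ?_⟩ <;>
  · rw [← MonoidalClosed.curry_natural_left, ← Category.assoc]
    rfl

theorem htpc_uncurry {L : SSet.{0}} {f g : X ⟶ (ihom L).obj K} (h : Htpc f g) :
    Htpc (MonoidalClosed.uncurry f) (MonoidalClosed.uncurry g) := by
  obtain ⟨H, rfl, rfl⟩ := htpc_iff.1 h
  refine htpc_iff.2 ⟨(α_ L X Δ[1]).hom ≫ MonoidalClosed.uncurry H, ?_, ?_⟩ <;>
  · rw [MonoidalClosed.uncurry_natural_left, ← Category.assoc]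
    rfl

theorem htpc_of_curry {L : SSet.{0}} {f g : L ⊗ X ⟶ K}
    (h : Htpc (MonoidalClosed.curry f) (MonoidalClosed.curry g)) : Htpc f g := by
  simpa using htpc_uncurry h

theorem weakEq_whiskerLeft (L : SSet.{0}) {f : X ⟶ Y} (hf : weakEq f) : weakEq (L ◁ f) := by
  rw [weakEq_iff] at hf ⊢
  intro K _
  obtain ⟨hs, hi⟩ := hf ((ihom L).obj K)
  refine ⟨fun g => ?_, fun g g' h => ?_⟩
  · obtain ⟨G, hG⟩ := hs (MonoidalClosed.curry g)
    refine ⟨MonoidalClosed.uncurry G, ?_⟩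
    have := htpc_uncurry hG
    rwa [MonoidalClosed.uncurry_natural_left, MonoidalClosed.uncurry_curry] at this
  · apply htpc_of_curry
    apply hi
    have := htpc_curry h
    rwa [MonoidalClosed.curry_natural_left, MonoidalClosed.curry_natural_left] at this

theorem weakEq_whiskerRight {f : X ⟶ Y} (hf : weakEq f) (L : SSet.{0}) : weakEq (f ▷ L) :=
  (weakEq.arrow_mk_iso_iff (Arrow.isoMk (β_ L X) (β_ L Y))).1 (weakEq_whiskerLeft L hf)

theorem pt_comp_map (f : X ⟶ Y) (g : Y ⟶ Z) :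
    pt f ≫ (ihom X).map g = pt (f ≫ g) := by
  rw [pt, ← MonoidalClosed.curry_natural_right, Category.assoc]
  rfl

theorem pt_pre (i : X ⟶ Y) (g : Y ⟶ K) :
    pt g ≫ (MonoidalClosed.pre i).app K = pt (i ≫ g) := by
  rw [pt, MonoidalClosed.curry_pre_app, ← Category.assoc, whiskerRight_fst, Category.assoc]
  rfl

theorem htpc_pt_iff {a b : Δ[0] ⟶ Z} :
    Htpc a b ↔ ∃ e : Δ[1] ⟶ Z,
      SSet.stdSimplex.δ (1 : Fin 2) ≫ e = a ∧ SSet.stdSimplex.δ (0 : Fin 2) ≫ e = b := by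
  rw [htpc_iff]
  constructor
  · rintro ⟨H, rfl, rfl⟩
    refine ⟨lift (toPt _) (𝟙 _) ≫ H, ?_, ?_⟩
    · rw [← Category.assoc, ι₀_eq]
      congr 1
      apply CartesianMonoidalCategory.hom_ext
      · exact SSet.stdSimplex.ext₀
      · rw [comp_lift, lift_snd, lift_snd, Category.comp_id,
          show toPt (Δ[0] : SSet.{0}) = 𝟙 _ from SSet.stdSimplex.ext₀, Category.id_comp]
    · rw [← Category.assoc, ι₁_eq]
      congr 1
      apply CartesianMonoidalCategory.hom_ext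
      · exact SSet.stdSimplex.ext₀
      · rw [comp_lift, lift_snd, lift_snd, Category.comp_id,
          show toPt (Δ[0] : SSet.{0}) = 𝟙 _ from SSet.stdSimplex.ext₀, Category.id_comp]
  · rintro ⟨e, rfl, rfl⟩
    refine ⟨snd _ _ ≫ e, ?_, ?_⟩
    · rw [← Category.assoc, ι₀_eq, lift_snd,
        show toPt (Δ[0] : SSet.{0}) = 𝟙 _ from SSet.stdSimplex.ext₀, Category.id_comp]
    · rw [← Category.assoc, ι₁_eq, lift_snd,
        show toPt (Δ[0] : SSet.{0}) = 𝟙 _ from SSet.stdSimplex.ext₀, Category.id_comp]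

theorem htpc_iff_pt {f g : X ⟶ K} : Htpc f g ↔ Htpc (pt f) (pt g) := by
  rw [htpc_iff_edge, htpc_pt_iff]

/-! ## Trivial fibrations -/

theorem exists_section {E B : SSet.{0}} {p : E ⟶ B} (hp : TrivFib p) :
    ∃ s : B ⟶ E, s ≫ p = 𝟙 B := by
  have := hp (⊥ : B.Subcomplex).ι (MorphismProperty.monomorphisms.infer_property _)
  have sq : CommSq ((SSet.Subcomplex.isInitialBot (X := B)).to E) (⊥ : B.Subcomplex).ι p (𝟙 B) :=
    ⟨(SSet.Subcomplex.isInitialBot (X := B)).hom_ext _ _⟩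
  exact ⟨sq.lift, sq.fac_right⟩

/-- Vertical homotopies between lifts to a trivial fibration. -/
theorem exists_vertical {E B : SSet.{0}} {p : E ⟶ B} (hp : TrivFib p) (u v : X ⟶ E)
    (h : u ≫ p = v ≫ p) : ∃ H : X ⊗ Δ[1] ⟶ E,
      SSet.ι₀ ≫ H = u ∧ SSet.ι₁ ≫ H = v ∧ H ≫ p = fst _ _ ≫ u ≫ p := by
  let A₀ : (X ⊗ Δ[1] : SSet.{0}).Subcomplex :=
    SSet.Subcomplex.range (SSet.ι₀ : X ⟶ X ⊗ Δ[1])
  let A₁ : (X ⊗ Δ[1] : SSet.{0}).Subcomplex :=
    SSet.Subcomplex.range (SSet.ι₁ : X ⟶ X ⊗ Δ[1])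
  have hd : A₀ ⊓ A₁ = ⊥ := by
    ext ⟨⟨m⟩⟩ x
    simp only [Subfunctor.bot_obj, Set.bot_eq_empty, Set.mem_empty_iff_false, iff_false]
    rintro ⟨⟨y, rfl⟩, z, hz⟩
    have h0 : ((SSet.ι₀.app _ y).2 : (Δ[1] : SSet.{0}) _⦋m⦌) 0 = 0 := SSet.ι₀_app_snd_apply y 0
    have h1 : ((SSet.ι₁.app _ z).2 : (Δ[1] : SSet.{0}) _⦋m⦌) 0 = 1 := SSet.ι₁_app_snd_apply z 0
    rw [hz] at h1
    exact absurd (h0.symm.trans h1) Fin.zero_ne_one
  have sq : SSet.Subcomplex.BicartSq ⊥ A₀ A₁ (A₀ ⊔ A₁) := { sup_eq := rfl, inf_eq := hd }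
  let l := sq.isPushout.desc (A₀.ι ≫ fst _ _ ≫ u) (A₁.ι ≫ fst _ _ ≫ v)
    (SSet.Subcomplex.isInitialBot.hom_ext _ _)
  have c : CommSq l (A₀ ⊔ A₁).ι p (fst _ _ ≫ u ≫ p) := by
    constructor
    apply sq.isPushout.hom_ext
    · rw [← Category.assoc, sq.isPushout.inl_desc]
      simp
    · rw [← Category.assoc, sq.isPushout.inr_desc]
      simp [h]
  have := hp (A₀ ⊔ A₁).ι (MorphismProperty.monomorphisms.infer_property _)
  refine ⟨c.lift, ?_, ?_, c.fac_right⟩
  · have e : SSet.Subcomplex.toRange (SSet.ι₀ : X ⟶ X ⊗ Δ[1]) ≫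
        SSet.Subcomplex.homOfLE (le_sup_left : A₀ ≤ A₀ ⊔ A₁) ≫ (A₀ ⊔ A₁).ι = SSet.ι₀ := rfl
    have e' : SSet.Subcomplex.toRange (SSet.ι₀ : X ⟶ X ⊗ Δ[1]) ≫ A₀.ι = SSet.ι₀ := rfl
    rw [← e, Category.assoc, Category.assoc, c.fac_left]
    erw [sq.isPushout.inl_desc]
    rw [← Category.assoc, e', SSet.ι₀_fst_assoc]
  · have e : SSet.Subcomplex.toRange (SSet.ι₁ : X ⟶ X ⊗ Δ[1]) ≫
        SSet.Subcomplex.homOfLE (le_sup_right : A₁ ≤ A₀ ⊔ A₁) ≫ (A₀ ⊔ A₁).ι = SSet.ι₁ := rfl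
    have e' : SSet.Subcomplex.toRange (SSet.ι₁ : X ⟶ X ⊗ Δ[1]) ≫ A₁.ι = SSet.ι₁ := rfl
    rw [← e, Category.assoc, Category.assoc, c.fac_left]
    erw [sq.isPushout.inr_desc]
    rw [← Category.assoc, e', SSet.ι₁_fst_assoc]

theorem exists_inverse_of_trivFib {E B : SSet.{0}} {p : E ⟶ B} (hp : TrivFib p) :
    ∃ s : B ⟶ E, s ≫ p = 𝟙 B ∧ Htpc (p ≫ s) (𝟙 E) := by
  obtain ⟨s, hs⟩ := exists_section hp
  obtain ⟨H, h₀, h₁, -⟩ := exists_vertical hp (p ≫ s) (𝟙 E) (by simp [hs])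
  exact ⟨s, hs, htpc_iff.2 ⟨H, h₀, h₁⟩⟩

theorem weakEq_of_trivFib {E B : SSet.{0}} (p : E ⟶ B) (hp : TrivFib p) : weakEq p := by
  obtain ⟨s, hs, h⟩ := exists_inverse_of_trivFib hp
  exact weakEq_of_inverse p s (Quot.sound h) (by rw [hs])

theorem weakEq_of_trivFib_pre {i : A ⟶ B}
    (h : ∀ (K : SSet.{0}) [SSet.KanComplex K], TrivFib ((MonoidalClosed.pre i).app K)) :
    weakEq i := by
  rw [weakEq_iff]
  intro K _
  obtain ⟨s, hs, hH⟩ := exists_inverse_of_trivFib (h K)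
  refine ⟨fun g => ?_, fun g g' hg => ?_⟩
  · obtain ⟨g', hg'⟩ := exists_pt (pt g ≫ s)
    have : i ≫ g' = g := pt_injective (by rw [← pt_pre, hg', Category.assoc, hs, Category.comp_id])
    exact ⟨g', by rw [this]; exact htpc_refl g⟩
  · rw [htpc_iff_pt, ← pt_pre, ← pt_pre] at hg
    have a := htpc_comp_left (pt g) hH
    have b := htpc_comp_left (pt g') hH
    have c := htpc_comp_right hg s
    rw [Category.comp_id] at a b
    rw [Category.assoc, Category.assoc] at c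
    exact htpc_iff_pt.2 (htpc_trans (htpc_symm a) (htpc_trans c b))

theorem trivFib_pre_of_anodyne {f : X ⟶ Y} (hf : SSet.anodyneExtensions f)
    (K : SSet.{0}) [SSet.KanComplex K] : TrivFib ((MonoidalClosed.pre f).app K) := by
  intro A B i hi
  have : Mono i := hi
  let sq₁₂ := Functor.PushoutObjObj.ofHasPushout (curriedTensor SSet.{0}) f i
  let sq₁₃ := Functor.PullbackObjObj.ofIsTerminal MonoidalClosed.internalHom f
    (terminal.from K) terminalIsTerminal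
  change HasLiftingProperty i sq₁₃.π
  rw [← internalHomAdjunction₂.hasLiftingProperty_iff sq₁₂]
  exact SSet.anodyneExtensions_pushoutObjObjι' sq₁₂ hf _ ((isFibrant_iff K).1 ‹_›).mem

theorem weakEq_of_anodyne {f : X ⟶ Y} (hf : SSet.anodyneExtensions f) : weakEq f :=
  weakEq_of_trivFib_pre fun K _ => trivFib_pre_of_anodyne hf K

theorem weakEq_horn {n : ℕ} {m : Fin (n + 2)} :
    weakEq (Λ[n + 1, m].ι : _ ⟶ (Δ[n + 1] : SSet.{0})) :=
  weakEq_of_anodyne (SSet.anodyneExtensions.horn_ι m)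

/-! ## Fibrations that are homotopy equivalences -/

theorem anodyne_vertex (j : Fin 2) :
    SSet.anodyneExtensions (SSet.stdSimplex.δ j : (Δ[0] : SSet.{0}) ⟶ Δ[1]) := by
  intro E B p hp
  have : Fibration p := ⟨hp⟩
  refine ⟨fun {a b} sq => ?_⟩
  have hj : ∀ k : Fin 2, k ≠ 1 - j → k = j := by
    intro k hk; fin_cases j <;> fin_cases k <;> simp_all
  obtain ⟨φ, hφ, hb⟩ := SSet.horn.IsCompatible.exists_lift
    (i := (1 - j : Fin 2)) (f := fun _ _ => a) (by trivial) p b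
    (fun k hk => by rw [hj k hk]; exact sq.w)
  exact ⟨⟨⟨φ, hφ j (by fin_cases j <;> simp), hb⟩⟩⟩

theorem anodyne_ι₀ (X : SSet.{0}) :
    SSet.anodyneExtensions (SSet.ι₀ : X ⟶ X ⊗ Δ[1]) := by
  have : IsIso (lift (𝟙 X) (toPt X)) := ⟨fst _ _, by simp, by
    apply CartesianMonoidalCategory.hom_ext
    · simp
    · exact SSet.stdSimplex.ext₀⟩
  rw [ι₀_eq, show lift (𝟙 X) (toPt X ≫ SSet.stdSimplex.δ (1 : Fin 2)) =
    lift (𝟙 X) (toPt X) ≫ X ◁ SSet.stdSimplex.δ (1 : Fin 2) by simp]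
  exact MorphismProperty.comp_mem _ _ _ (.of_isIso _) ((anodyne_vertex 1).whiskerLeft X)

theorem trivFib_of_inverse {E B : SSet.{0}} [SSet.KanComplex E]
    (p : E ⟶ B) [Fibration p] (s₀ : B ⟶ E)
    (h₁ : Htpc (s₀ ≫ p) (𝟙 B)) (h₂ : Htpc (p ≫ s₀) (𝟙 E)) : TrivFib p := by
  obtain ⟨Hb, hb₀, hb₁⟩ := htpc_iff.1 h₁
  have sq₀ : CommSq s₀ (SSet.ι₀ : B ⟶ B ⊗ Δ[1]) p Hb := ⟨hb₀.symm⟩
  have := anodyne_ι₀ B p (mem_fibrations p)
  let s : B ⟶ E := SSet.ι₁ ≫ sq₀.lift
  have hs : s ≫ p = 𝟙 B := by rw [Category.assoc, sq₀.fac_right, hb₁]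
  have hH : Htpc (p ≫ s) (𝟙 E) := by
    have a : Htpc s₀ s := htpc_iff.2 ⟨sq₀.lift, sq₀.fac_left, rfl⟩
    exact htpc_cancel (htpc_comp_left p a) h₂
  obtain ⟨h, hh₁, hh₀⟩ := htpc_iff_edge.1 hH
  let q := (ihom E).map p
  let r := (ihom E).map (p ≫ s)
  have hcompat : SSet.stdSimplex.δ (1 : Fin 2) ≫ h ≫ r = SSet.stdSimplex.δ (1 : Fin 2) ≫ h := by
    rw [← Category.assoc, hh₁, pt_comp_map, Category.assoc, ← Category.assoc s, hs,
      Category.id_comp]
  have hrq : r ≫ q = q := by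
    rw [← Functor.map_comp, Category.assoc, hs, Category.comp_id]
  have sqh : CommSq (SSet.horn₂₀.isPushout.desc (h ≫ r) h hcompat) Λ[2, 0].ι q
      (SSet.stdSimplex.σ (1 : Fin 2) ≫ h ≫ q) := by
    constructor
    apply SSet.horn₂₀.isPushout.hom_ext
    · rw [← Category.assoc, SSet.horn₂₀.isPushout.inl_desc, SSet.horn.ι_ι_assoc,
        Category.assoc, hrq, ← Category.assoc]
      convert (Category.id_comp (h ≫ q)).symm using 2
      exact CosimplicialObject.δ_comp_σ_succ SSet.stdSimplex (i := (1 : Fin 2))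
    · rw [← Category.assoc, SSet.horn₂₀.isPushout.inr_desc, SSet.horn.ι_ι_assoc, ← Category.assoc]
      convert (Category.id_comp (h ≫ q)).symm using 2
      exact CosimplicialObject.δ_comp_σ_self SSet.stdSimplex (i := (1 : Fin 2))
  have f₂ : SSet.stdSimplex.δ (2 : Fin 3) ≫ sqh.lift = h ≫ r := by
    rw [← SSet.horn.ι_ι (0 : Fin 3) 2 (by decide), Category.assoc, sqh.fac_left,
      SSet.horn₂₀.isPushout.inl_desc]
  have f₁ : SSet.stdSimplex.δ (1 : Fin 3) ≫ sqh.lift = h := by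
    rw [← SSet.horn.ι_ι (0 : Fin 3) 1 (by decide), Category.assoc, sqh.fac_left,
      SSet.horn₂₀.isPushout.inr_desc]
  let G := MonoidalClosed.uncurry (SSet.stdSimplex.δ (0 : Fin 3) ≫ sqh.lift)
  have hG₀ : SSet.ι₀ ≫ G = p ≫ s := pt_injective <| by
    rw [← δ₁_curry, MonoidalClosed.curry_uncurry, ← Category.assoc,
      show SSet.stdSimplex.δ (1 : Fin 2) ≫ SSet.stdSimplex.δ (0 : Fin 3) =
        SSet.stdSimplex.δ (0 : Fin 2) ≫ SSet.stdSimplex.δ (2 : Fin 3) from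
          (CosimplicialObject.δ_comp_δ SSet.stdSimplex (i := (0 : Fin 2)) (j := 1)
            (by decide)).symm,
      Category.assoc, f₂, ← Category.assoc, hh₀, pt_comp_map, Category.id_comp]
  have hG₁ : SSet.ι₁ ≫ G = 𝟙 E := pt_injective <| by
    rw [← δ₀_curry, MonoidalClosed.curry_uncurry, ← Category.assoc,
      show SSet.stdSimplex.δ (0 : Fin 2) ≫ SSet.stdSimplex.δ (0 : Fin 3) =
        SSet.stdSimplex.δ (0 : Fin 2) ≫ SSet.stdSimplex.δ (1 : Fin 3) from
          CosimplicialObject.δ_comp_δ_self SSet.stdSimplex (i := (0 : Fin 2)),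
      Category.assoc, f₁, hh₀]
  have hGp : G ≫ p = fst _ _ ≫ p := by
    rw [← MonoidalClosed.uncurry_natural_right, Category.assoc, sqh.fac_right, ← Category.assoc,
      show SSet.stdSimplex.δ (0 : Fin 3) ≫ SSet.stdSimplex.σ (1 : Fin 2) =
        SSet.stdSimplex.σ (0 : Fin 1) ≫ SSet.stdSimplex.δ (0 : Fin 2) from
          CosimplicialObject.δ_comp_σ_of_le SSet.stdSimplex (i := (0 : Fin 2)) (j := 0)
            le_rfl,
      Category.assoc, ← Category.assoc (SSet.stdSimplex.δ (0 : Fin 2)), hh₀, pt_comp_map,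
      Category.id_comp, MonoidalClosed.uncurry_natural_left, pt, MonoidalClosed.uncurry_curry,
      ← Category.assoc, whiskerLeft_fst]
  intro A C j hj
  have : Mono j := hj
  refine ⟨fun {u v} sq => ?_⟩
  let po := Functor.PushoutObjObj.ofHasPushout (curriedTensor SSet.{0}) j
    (SSet.stdSimplex.δ (1 : Fin 2))
  have hc : j ▷ Δ[0] ≫ fst C _ ≫ v ≫ s = A ◁ SSet.stdSimplex.δ (1 : Fin 2) ≫ u ▷ Δ[1] ≫ G := by
    rw [whiskerRight_fst_assoc, whiskerLeft_δ₁, Category.assoc, SSet.ι₀_comp_assoc, hG₀,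
      ← Category.assoc j, ← sq.w, Category.assoc]
  have sqL : CommSq (po.isPushout.desc (fst C _ ≫ v ≫ s) (u ▷ Δ[1] ≫ G) hc) po.ι p
      (fst C _ ≫ v) := by
    constructor
    apply po.hom_ext
    · rw [IsPushout.inl_desc_assoc, po.inl_ι_assoc]
      change (fst C _ ≫ v ≫ s) ≫ p = C ◁ _ ≫ fst C _ ≫ v
      rw [whiskerLeft_fst_assoc, Category.assoc, Category.assoc, hs, Category.comp_id]
    · rw [IsPushout.inr_desc_assoc, po.inr_ι_assoc]
      change (u ▷ _ ≫ G) ≫ p = j ▷ _ ≫ fst C _ ≫ v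
      rw [Category.assoc, hGp, whiskerRight_fst_assoc, whiskerRight_fst_assoc, sq.w]
  have := SSet.anodyneExtensions_pushoutObjObjι po (anodyne_vertex 1) p (mem_fibrations p)
  refine ⟨⟨⟨SSet.ι₁ ≫ sqL.lift, ?_, ?_⟩⟩⟩
  · have e : j ▷ Δ[1] ≫ sqL.lift = u ▷ Δ[1] ≫ G := by
      have := po.inr_ι =≫ sqL.lift
      rw [Category.assoc, sqL.fac_left, IsPushout.inr_desc] at this
      exact this.symm
    rw [← SSet.ι₁_comp_assoc, e, SSet.ι₁_comp_assoc, hG₁, Category.comp_id]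
  · rw [Category.assoc, sqL.fac_right, SSet.ι₁_fst_assoc]

/-- A fibration between Kan complexes that is a weak equivalence is a trivial fibration. -/
theorem trivFib_of_weakEq_kan {E B : SSet.{0}} [SSet.KanComplex E] [SSet.KanComplex B]
    (p : E ⟶ B) [Fibration p] (hw : weakEq p) : TrivFib p := by
  rw [weakEq_iff] at hw
  obtain ⟨s, hs⟩ := (hw E).1 (𝟙 E)
  refine trivFib_of_inverse p s ((hw B).2 _ _ ?_) hs
  simpa using htpc_comp_right hs p

theorem trivFib_pre {i : A ⟶ B} [Mono i] (hi : weakEq i) (K : SSet.{0}) [SSet.KanComplex K] :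
    TrivFib ((MonoidalClosed.pre i).app K) := by
  let p := (MonoidalClosed.pre i).app K
  have key : ∀ {L : SSet.{0}} (w : L ⟶ (ihom B).obj K),
      w ≫ p = MonoidalClosed.curry (i ▷ L ≫ MonoidalClosed.uncurry w) := fun w => by
    conv_lhs => rw [← MonoidalClosed.curry_uncurry w]
    exact MonoidalClosed.curry_pre_app _ _
  obtain ⟨g', hg'⟩ := ((weakEq_iff.1 (weakEq_whiskerRight hi ((ihom A).obj K))) K).1
    (MonoidalClosed.uncurry (𝟙 _))
  have hs : Htpc (MonoidalClosed.curry g' ≫ p) (𝟙 _) := by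
    have := htpc_curry hg'
    rw [MonoidalClosed.curry_uncurry] at this
    rwa [key, MonoidalClosed.uncurry_curry]
  refine trivFib_of_inverse p (MonoidalClosed.curry g') hs ?_
  have h := htpc_comp_left p hs
  rw [Category.comp_id, ← Category.assoc, key (p ≫ MonoidalClosed.curry g')] at h
  have e : p = MonoidalClosed.curry (i ▷ _ ≫ MonoidalClosed.uncurry (𝟙 ((ihom B).obj K))) := by
    rw [← key, Category.id_comp]
  conv at h => arg 2; rw [e]
  have := htpc_curry (((weakEq_iff.1 (weakEq_whiskerRight hi _)) K).2 _ _ (htpc_of_curry h))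
  simpa using this

/-! ## Monomorphisms that are weak equivalences -/

/-- Exchange of the two maps in a lifting problem against a restriction map. -/
theorem lift_pre_iff (f : X ⟶ Y) (i : A ⟶ B) (K : SSet.{0}) :
    HasLiftingProperty i ((MonoidalClosed.pre f).app K) ↔
      HasLiftingProperty f ((MonoidalClosed.pre i).app K) := by
  let sq₁₂ := Functor.PushoutObjObj.ofHasPushout (curriedTensor SSet.{0}) f i
  let sq₁₃ := Functor.PullbackObjObj.ofIsTerminal MonoidalClosed.internalHom f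
    (terminal.from K) terminalIsTerminal
  let sq₁₃' := Functor.PullbackObjObj.ofIsTerminal MonoidalClosed.internalHom i
    (terminal.from K) terminalIsTerminal
  change HasLiftingProperty i sq₁₃.π ↔ HasLiftingProperty f sq₁₃'.π
  rw [← internalHomAdjunction₂.hasLiftingProperty_iff sq₁₂,
    ← internalHomAdjunction₂.hasLiftingProperty_iff sq₁₂.flipTensor]
  exact HasLiftingProperty.iff_of_arrow_iso_left
    (Arrow.isoMk (f := Arrow.mk sq₁₂.ι) (g := Arrow.mk sq₁₂.flipTensor.ι)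
      (Iso.refl _) (β_ _ _)) _

/-- The restriction maps of Kan complexes along boundary inclusions. -/
inductive IsPreBdry : ∀ ⦃X Y : SSet.{0}⦄, (X ⟶ Y) → Prop where
  | mk (n : ℕ) (K : SSet.{0}) (hK : SSet.KanComplex K) :
      IsPreBdry ((MonoidalClosed.pre ∂Δ[n].ι).app K)

/-- `IsPreBdry` as a class of morphisms. -/
def PreBdry : MorphismProperty SSet.{0} := @IsPreBdry

theorem weakEq_mono_eq :
    (weakEq ⊓ MorphismProperty.monomorphisms SSet.{0}) =
      PreBdry.llp ⊓ MorphismProperty.monomorphisms SSet.{0} := by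
  ext X Y f
  refine and_congr_left fun (hm : Mono f) => ⟨fun hf => ?_, fun hf => ?_⟩
  · rintro _ _ _ ⟨n, K, hK⟩
    exact (lift_pre_iff f _ K).1
      (trivFib_pre hf K _ (MorphismProperty.monomorphisms.infer_property _))
  · refine weakEq_of_trivFib_pre fun K _ => ?_
    rw [trivFib_iff]
    rintro _ _ _ ⟨n⟩
    exact (lift_pre_iff f _ K).2 (hf _ (IsPreBdry.mk n K ‹_›))

theorem isStableUnderTransfinite_inf (P Q : MorphismProperty SSet.{0})
    [MorphismProperty.IsStableUnderTransfiniteComposition.{0} P]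
    [MorphismProperty.IsStableUnderTransfiniteComposition.{0} Q] :
    MorphismProperty.IsStableUnderTransfiniteComposition.{0} (P ⊓ Q) :=
  ⟨fun J _ _ _ _ => ⟨le_inf
    ((MorphismProperty.transfiniteCompositionsOfShape_monotone J inf_le_left).trans
      (MorphismProperty.transfiniteCompositionsOfShape_le P J))
    ((MorphismProperty.transfiniteCompositionsOfShape_monotone J inf_le_right).trans
      (MorphismProperty.transfiniteCompositionsOfShape_le Q J))⟩⟩

theorem weakEq_transfinite :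
    MorphismProperty.IsStableUnderTransfiniteComposition.{0}
      (weakEq ⊓ MorphismProperty.monomorphisms SSet.{0}) := by
  rw [weakEq_mono_eq]
  exact isStableUnderTransfinite_inf _ _

theorem weakEq_coproducts (J : Type) :
    (weakEq ⊓ MorphismProperty.monomorphisms SSet.{0}).IsStableUnderCoproductsOfShape J := by
  rw [weakEq_mono_eq]
  exact (MorphismProperty.isStableUnderColimitsOfShape_iff_colimitsOfShape_le _ _).2 (le_inf
    ((MorphismProperty.colimitsOfShape_monotone inf_le_left _).trans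
      MorphismProperty.colimitsOfShape_le)
    ((MorphismProperty.colimitsOfShape_monotone inf_le_right _).trans
      MorphismProperty.colimitsOfShape_le))

theorem mono_of_isPushout {f : A ⟶ B} {g : A ⟶ X} {f' : X ⟶ Y} {g' : B ⟶ Y}
    (hp : IsPushout g f f' g') [Mono f] : Mono f' :=
  MorphismProperty.of_isPushout (P := MorphismProperty.monomorphisms _) hp ‹Mono f›

theorem weakEq_pushout (f : A ⟶ B) (g : A ⟶ X) (f' : X ⟶ Y) (g' : B ⟶ Y)
    (hp : IsPushout g f f' g') [Mono f] (hf : weakEq f) : weakEq f' := by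
  have h : (weakEq ⊓ MorphismProperty.monomorphisms SSet.{0}) f := ⟨hf, ‹Mono f›⟩
  rw [weakEq_mono_eq] at h
  have h' := MorphismProperty.of_isPushout
    (P := PreBdry.llp ⊓ MorphismProperty.monomorphisms SSet.{0}) hp h
  rw [← weakEq_mono_eq] at h'
  exact h'.1

/-! ## Factorization -/

attribute [local instance] Cardinal.fact_isRegular_aleph0 Cardinal.orderBotAleph0OrdToType

instance : MorphismProperty.IsSmall.{0} SSet.modelCategoryQuillen.I.{0} :=
  MorphismProperty.isSmall_ofHoms ..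

instance : MorphismProperty.IsCardinalForSmallObjectArgument
    SSet.modelCategoryQuillen.I.{0} Cardinal.aleph0.{0} where
  preservesColimit {A B X Y} i hi f hf := by
    have : IsFinitelyPresentable.{0} A := by
      obtain ⟨n⟩ := hi
      infer_instance
    infer_instance

instance : MorphismProperty.HasSmallObjectArgument.{0} SSet.modelCategoryQuillen.I.{0} :=
  ⟨.aleph0, inferInstance, inferInstance, inferInstance⟩

theorem llp_rlp_I_le :
    SSet.modelCategoryQuillen.I.{0}.rlp.llp ≤ MorphismProperty.monomorphisms SSet.{0} := by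
  rw [MorphismProperty.llp_rlp_of_hasSmallObjectArgument]
  refine MorphismProperty.retracts_le _ |>.trans' (MorphismProperty.retracts_monotone ?_)
  rintro _ _ f hf
  rw [MorphismProperty.transfiniteCompositions_iff] at hf
  obtain ⟨J, _, _, _, _, hf⟩ := hf
  refine ((MorphismProperty.transfiniteCompositionsOfShape_monotone J ?_).trans
    (MorphismProperty.transfiniteCompositionsOfShape_le _ J)) f hf
  simp only [MorphismProperty.pushouts_le_iff, MorphismProperty.coproducts_le_iff]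
  exact SSet.modelCategoryQuillen.I_le_monomorphisms

theorem exists_factor (g : A ⟶ X) : ∃ (M : SSet.{0}) (j : A ⟶ M) (π : M ⟶ X),
    Mono j ∧ TrivFib π ∧ j ≫ π = g := by
  have hI := MorphismProperty.factorizationData SSet.modelCategoryQuillen.I.{0}.rlp.llp
    SSet.modelCategoryQuillen.I.{0}.rlp g
  exact ⟨hI.Z, hI.i, hI.p, llp_rlp_I_le _ hI.hi, (trivFib_iff _).2 hI.hp, hI.fac⟩

/-! ## Pushouts along monomorphisms -/

/-- Homotopy extension. -/
theorem exists_htpc_extension (k : X ⟶ Y) [Mono k] [SSet.KanComplex K] (y : Y ⟶ K)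
    (H : X ⊗ Δ[1] ⟶ K) (h : SSet.ι₀ ≫ H = k ≫ y) :
    ∃ y' : Y ⟶ K, Htpc y y' ∧ k ≫ y' = SSet.ι₁ ≫ H := by
  have sq : CommSq (pt y) (SSet.stdSimplex.δ (1 : Fin 2)) ((MonoidalClosed.pre k).app K)
      (MonoidalClosed.curry H) := ⟨by rw [pt_pre, δ₁_curry, h]⟩
  have := anodyne_vertex 1 ((MonoidalClosed.pre k).app K) (mem_fibrations _)
  obtain ⟨y', hy'⟩ := exists_pt (SSet.stdSimplex.δ (0 : Fin 2) ≫ sq.lift)
  refine ⟨y', htpc_iff_edge.2 ⟨sq.lift, sq.fac_left, hy'.symm⟩, pt_injective ?_⟩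
  rw [← pt_pre, hy', Category.assoc, sq.fac_right, δ₀_curry]

theorem boundary_whiskerRight_ext {f g : (∂Δ[1] : SSet.{0}) ⊗ X ⟶ K}
    (h : ∀ i, SSet.boundary.ι i ▷ X ≫ f = SSet.boundary.ι i ▷ X ≫ g) : f = g := by
  rw [← cancel_epi (β_ X (∂Δ[1] : SSet.{0})).hom]
  apply MonoidalClosed.curry_injective
  apply SSet.boundary.hom_ext
  intro i
  rw [← MonoidalClosed.curry_natural_left, ← MonoidalClosed.curry_natural_left,
    BraidedCategory.braiding_naturality_right_assoc,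
    BraidedCategory.braiding_naturality_right_assoc, h]

theorem isPushout_whiskerRight {f : A ⟶ B} {g : A ⟶ X} {f' : X ⟶ Y} {g' : B ⟶ Y}
    (hp : IsPushout g f f' g') (L : SSet.{0}) :
    IsPushout (g ▷ L) (f ▷ L) (f' ▷ L) (g' ▷ L) :=
  (hp.map (tensorLeft L)).of_iso (β_ L A) (β_ L X) (β_ L B) (β_ L Y)
    (BraidedCategory.braiding_naturality_right _ _) (BraidedCategory.braiding_naturality_right _ _)
    (BraidedCategory.braiding_naturality_right _ _) (BraidedCategory.braiding_naturality_right _ _)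

/-- The pushout of a trivial fibration along a monomorphism is a weak equivalence. -/
theorem weakEq_pushout_trivFib {M X P Y : SSet.{0}} {π : M ⟶ X} {k : M ⟶ P} {i' : X ⟶ Y}
    {π' : P ⟶ Y} (hp : IsPushout π k i' π') [Mono k] (hπ : TrivFib π) : weakEq π' := by
  obtain ⟨σ, hσ⟩ := exists_section hπ
  obtain ⟨G, hG₀, hG₁, hGπ⟩ := exists_vertical hπ (𝟙 M) (π ≫ σ) (by simp [hσ])
  rw [weakEq_iff]
  intro K _
  refine ⟨fun y => ?_, fun y₁ y₂ hy => ?_⟩
  · obtain ⟨y', hh, hk⟩ := exists_htpc_extension k y (G ≫ k ≫ y)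
      (by rw [← Category.assoc, hG₀, Category.id_comp])
    rw [← Category.assoc, hG₁, Category.assoc] at hk
    refine ⟨hp.desc (σ ≫ k ≫ y) y' hk.symm, ?_⟩
    rw [hp.inr_desc]
    exact htpc_symm hh
  · obtain ⟨F, hF₁, hF₀⟩ := htpc_iff_edge.1 hy
    let r := (MonoidalClosed.pre k).app K
    let H : M ⊗ Δ[1] ⟶ K := k ▷ Δ[1] ≫ MonoidalClosed.uncurry F
    have hH : F ≫ r = MonoidalClosed.curry H := by
      conv_lhs => rw [← MonoidalClosed.curry_uncurry F]
      exact MonoidalClosed.curry_pre_app _ _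
    let c : M ⊗ (Δ[1] ⊗ Δ[1]) ⟶ (M ⊗ Δ[1]) ⊗ Δ[1] :=
      lift (lift (fst _ _) (snd _ _ ≫ snd _ _)) (snd _ _ ≫ fst _ _)
    let Φ : Δ[1] ⊗ Δ[1] ⟶ (ihom M).obj K := MonoidalClosed.curry (c ≫ G ▷ Δ[1] ≫ H)
    have hΦ₀ : SSet.ι₀ ≫ Φ = F ≫ r := by
      rw [hH, ← MonoidalClosed.curry_natural_left]
      congr 1
      rw [← Category.assoc,
        show M ◁ SSet.ι₀ ≫ c = (SSet.ι₀ : M ⟶ M ⊗ Δ[1]) ▷ Δ[1] from rfl,
        ← comp_whiskerRight_assoc, hG₀, id_whiskerRight, Category.id_comp]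
    have hΦ₁ : SSet.ι₁ ≫ Φ = MonoidalClosed.curry (π ▷ Δ[1] ≫ σ ▷ Δ[1] ≫ H) := by
      rw [← MonoidalClosed.curry_natural_left]
      congr 1
      rw [← Category.assoc,
        show M ◁ SSet.ι₁ ≫ c = (SSet.ι₁ : M ⟶ M ⊗ Δ[1]) ▷ Δ[1] from rfl,
        ← comp_whiskerRight_assoc, hG₁, comp_whiskerRight_assoc]
    have ends : ∀ (d : (Δ[0] : SSet.{0}) ⟶ Δ[1]) (y : Y ⟶ K), d ≫ F = pt (π' ≫ y) →
        d ▷ Δ[1] ≫ Φ = fst _ _ ≫ d ≫ F ≫ r := by
      intro d y hd
      have hdH : M ◁ d ≫ H = fst _ _ ≫ π ≫ i' ≫ y := by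
        apply MonoidalClosed.curry_injective
        rw [MonoidalClosed.curry_natural_left, ← hH, ← Category.assoc, hd, pt_pre,
          ← Category.assoc k, ← hp.w, Category.assoc]
        rfl
      rw [← Category.assoc d, hd, pt_pre, ← Category.assoc k, ← hp.w, Category.assoc, pt,
        ← MonoidalClosed.curry_natural_left, ← MonoidalClosed.curry_natural_left]
      congr 1
      let c' : M ⊗ (Δ[0] ⊗ Δ[1]) ⟶ (M ⊗ Δ[1]) ⊗ Δ[0] :=
        lift (lift (fst _ _) (snd _ _ ≫ snd _ _)) (snd _ _ ≫ fst _ _)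
      rw [show M ◁ d ▷ Δ[1] ≫ c ≫ G ▷ Δ[1] ≫ H = c' ≫ G ▷ Δ[0] ≫ M ◁ d ≫ H from rfl, hdH,
        whiskerRight_fst_assoc, ← Category.assoc G, hGπ, Category.id_comp]
      rfl
    let po := Functor.PushoutObjObj.ofHasPushout (curriedTensor SSet.{0})
      (∂Δ[1].ι : (∂Δ[1] : SSet.{0}) ⟶ Δ[1]) (SSet.stdSimplex.δ (1 : Fin 2))
    have hc : ∂Δ[1].ι ▷ Δ[0] ≫ fst _ _ ≫ F =
        (∂Δ[1] : SSet.{0}) ◁ SSet.stdSimplex.δ (1 : Fin 2) ≫ fst _ _ ≫ ∂Δ[1].ι ≫ F := by
      rw [whiskerRight_fst_assoc, whiskerLeft_fst_assoc]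
    have sq : CommSq (po.isPushout.desc (fst _ _ ≫ F) (fst _ _ ≫ ∂Δ[1].ι ≫ F) hc) po.ι r Φ := by
      constructor
      apply po.hom_ext
      · rw [IsPushout.inl_desc_assoc, po.inl_ι_assoc]
        change (fst _ _ ≫ F) ≫ r = Δ[1] ◁ _ ≫ Φ
        rw [whiskerLeft_δ₁, Category.assoc, Category.assoc, hΦ₀]
      · rw [IsPushout.inr_desc_assoc, po.inr_ι_assoc]
        change (fst _ _ ≫ ∂Δ[1].ι ≫ F) ≫ r = ∂Δ[1].ι ▷ _ ≫ Φ
        apply boundary_whiskerRight_ext
        intro i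
        rw [← comp_whiskerRight_assoc, SSet.boundary.ι_ι, Category.assoc,
          whiskerRight_fst_assoc, Category.assoc, ← Category.assoc (SSet.boundary.ι i),
          SSet.boundary.ι_ι]
        fin_cases i
        · exact (ends _ y₂ hF₀).symm
        · exact (ends _ y₁ hF₁).symm
    have := SSet.anodyneExtensions_pushoutObjObjι po (anodyne_vertex 1) r (mem_fibrations _)
    let F' : Δ[1] ⟶ (ihom P).obj K := SSet.ι₁ ≫ sq.lift
    have hF'r : F' ≫ r = MonoidalClosed.curry (π ▷ Δ[1] ≫ σ ▷ Δ[1] ≫ H) := by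
      rw [Category.assoc, sq.fac_right, hΦ₁]
    have hF'e : ∀ i, SSet.stdSimplex.δ i ≫ F' = SSet.stdSimplex.δ i ≫ F := by
      intro i
      have := (po.inr_ι =≫ sq.lift)
      rw [Category.assoc, sq.fac_left, IsPushout.inr_desc] at this
      have h := SSet.boundary.ι i ▷ Δ[1] ≫= this
      change _ = _ ≫ ∂Δ[1].ι ▷ Δ[1] ≫ sq.lift at h
      rw [← comp_whiskerRight_assoc, SSet.boundary.ι_ι, whiskerRight_fst_assoc,
        ← Category.assoc (SSet.boundary.ι i), SSet.boundary.ι_ι] at h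
      rw [← SSet.ι₁_comp_assoc, ← h, SSet.ι₁_fst_assoc]
    have hk : π ▷ Δ[1] ≫ σ ▷ Δ[1] ≫ H = k ▷ Δ[1] ≫ MonoidalClosed.uncurry F' := by
      apply MonoidalClosed.curry_injective
      rw [← hF'r, ← MonoidalClosed.curry_pre_app, MonoidalClosed.curry_uncurry]
    let h := (isPushout_whiskerRight hp Δ[1]).desc _ _ hk
    have hm : σ ≫ k ≫ π' = i' := by
      rw [← hp.w, ← Category.assoc, hσ, Category.id_comp]
    refine htpc_iff.2 ⟨h, ?_, ?_⟩ <;> apply hp.hom_ext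
    · rw [← SSet.ι₀_comp_assoc, IsPushout.inl_desc, SSet.ι₀_comp_assoc, SSet.ι₀_comp_assoc]
      have e : SSet.ι₀ ≫ MonoidalClosed.uncurry F = π' ≫ y₁ := pt_injective <| by
        rw [← δ₁_curry, MonoidalClosed.curry_uncurry, hF₁]
      rw [e, ← Category.assoc k, ← Category.assoc σ, hm]
    · rw [← SSet.ι₀_comp_assoc, IsPushout.inr_desc]
      exact pt_injective <| by
        rw [← δ₁_curry, MonoidalClosed.curry_uncurry, hF'e, hF₁]
    · rw [← SSet.ι₁_comp_assoc, IsPushout.inl_desc, SSet.ι₁_comp_assoc, SSet.ι₁_comp_assoc]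
      have e : SSet.ι₁ ≫ MonoidalClosed.uncurry F = π' ≫ y₂ := pt_injective <| by
        rw [← δ₀_curry, MonoidalClosed.curry_uncurry, hF₀]
      rw [e, ← Category.assoc k, ← Category.assoc σ, hm]
    · rw [← SSet.ι₁_comp_assoc, IsPushout.inr_desc]
      exact pt_injective <| by
        rw [← δ₀_curry, MonoidalClosed.curry_uncurry, hF'e, hF₀]

theorem weakEq_pushout_mono (i : A ⟶ B) (g : A ⟶ X) (i' : X ⟶ Y) (g' : B ⟶ Y)
    (hp : IsPushout g i i' g') [Mono i] (hg : weakEq g) : weakEq g' := by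
  obtain ⟨M, j, π, hj, hπ, rfl⟩ := exists_factor g
  have h₁ := IsPushout.of_hasPushout j i
  have := mono_of_isPushout h₁
  let π' : pushout j i ⟶ Y := h₁.desc (π ≫ i') g' (by rw [← Category.assoc, hp.w])
  have hπ' : IsPushout π (pushout.inl j i) i' π' :=
    IsPushout.of_left (by rw [h₁.inr_desc]; exact hp)
      (h₁.inl_desc _ _ _).symm h₁
  have hjw : weakEq j := weakEq_of_comp_right (weakEq_of_trivFib π hπ) hg
  have := weakEq_comp (weakEq_pushout j i _ _ h₁.flip hjw) (weakEq_pushout_trivFib hπ' hπ)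
  rwa [h₁.inr_desc] at this

/-- Change of the monomorphism in a pushout. -/
theorem weakEq_cobase {B' Y' : SSet.{0}} {i : A ⟶ B} {g : A ⟶ X} {i₁ : X ⟶ Y} {g₁ : B ⟶ Y}
    {i' : A ⟶ B'} {i₁' : X ⟶ Y'} {g₁' : B' ⟶ Y'}
    (hp : IsPushout g i i₁ g₁) (hp' : IsPushout g i' i₁' g₁') [Mono i] [Mono i']
    {b : B ⟶ B'} {y : Y ⟶ Y'} (hi : i ≫ b = i') (h₁ : i₁ ≫ y = i₁') (h₂ : g₁ ≫ y = b ≫ g₁')
    (hb : weakEq b) : weakEq y := by
  obtain ⟨M, j, π, hj, hπ, rfl⟩ := exists_factor g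
  have q := IsPushout.of_hasPushout j i
  have q' := IsPushout.of_hasPushout j i'
  have := mono_of_isPushout q
  have := mono_of_isPushout q'
  let ρ : pushout j i ⟶ Y := q.desc (π ≫ i₁) g₁ (by rw [← Category.assoc, hp.w])
  let ρ' : pushout j i' ⟶ Y' := q'.desc (π ≫ i₁') g₁' (by rw [← Category.assoc, hp'.w])
  have hρ : IsPushout π (pushout.inl j i) i₁ ρ :=
    IsPushout.of_left (by rw [q.inr_desc]; exact hp)
      (q.inl_desc _ _ _).symm q
  have hρ' : IsPushout π (pushout.inl j i') i₁' ρ' :=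
    IsPushout.of_left (by rw [q'.inr_desc]; exact hp')
      (q'.inl_desc _ _ _).symm q'
  let μ : pushout j i ⟶ pushout j i' := q.desc (pushout.inl j i') (b ≫ pushout.inr j i')
    (by rw [← Category.assoc, hi, q'.w])
  have hμ : IsPushout (pushout.inr j i) b μ (pushout.inr j i') :=
    IsPushout.of_top (by rw [hi, q.inl_desc]; exact q') (q.inr_desc _ _ _) q
  have hm : Mono (pushout.inr j i) := mono_of_isPushout q.flip
  have hμw : weakEq μ := weakEq_pushout_mono (pushout.inr j i) b (pushout.inr j i') μ hμ.flip hb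
  have e : ρ ≫ y = μ ≫ ρ' := by
    apply q.hom_ext
    · rw [q.inl_desc_assoc, q.inl_desc_assoc, q'.inl_desc, Category.assoc, h₁]
    · rw [q.inr_desc_assoc, q.inr_desc_assoc, Category.assoc, q'.inr_desc, h₂]
  refine weakEq_of_comp_left (weakEq_pushout_trivFib hρ hπ) ?_
  rw [e]
  exact weakEq_comp hμw (weakEq_pushout_trivFib hρ' hπ)

/-- The gluing lemma along monomorphisms. -/
theorem weakEq_glue {A' B' X' Y' : SSet.{0}} {i : A ⟶ B} {g : A ⟶ X} {i₁ : X ⟶ Y} {g₁ : B ⟶ Y}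
    {i' : A' ⟶ B'} {g' : A' ⟶ X'} {i₁' : X' ⟶ Y'} {g₁' : B' ⟶ Y'}
    (hp : IsPushout g i i₁ g₁) (hp' : IsPushout g' i' i₁' g₁') [Mono i] [Mono i']
    {a : A ⟶ A'} {b : B ⟶ B'} {x : X ⟶ X'} {y : Y ⟶ Y'}
    (hi : i ≫ b = a ≫ i') (hg : g ≫ x = a ≫ g') (h₁ : i₁ ≫ y = x ≫ i₁')
    (h₂ : g₁ ≫ y = b ≫ g₁')
    (ha : weakEq a) (hb : weakEq b) (hx : weakEq x) : weakEq y := by
  have := mono_of_isPushout hp
  have q₁ := IsPushout.of_hasPushout x i₁
  have q := IsPushout.of_hasPushout a i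
  have := mono_of_isPushout q
  let β : pushout a i ⟶ B' := q.desc i' b hi.symm
  have r := IsPushout.of_hasPushout g' (pushout.inl a i)
  let γ : pushout g' (pushout.inl a i) ⟶ Y' := r.desc i₁' (β ≫ g₁')
    (by rw [← Category.assoc, q.inl_desc, hp'.w])
  have hβ : weakEq β := weakEq_of_comp_left (weakEq_pushout_mono i a _ _ q ha)
    (by rw [q.inr_desc]; exact hb)
  have hγ : weakEq γ := weakEq_cobase r hp' (q.inl_desc _ _ _) (r.inl_desc _ _ _)
    (r.inr_desc _ _ _) hβ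
  let δ : Y ⟶ pushout g' (pushout.inl a i) :=
    hp.desc (x ≫ pushout.inl _ _) (pushout.inr a i ≫ pushout.inr _ _) (by
      rw [← Category.assoc, hg, Category.assoc, r.w, ← Category.assoc, q.w, Category.assoc])
  have hδ : IsPushout x i₁ (pushout.inl g' (pushout.inl a i)) δ :=
    IsPushout.of_left (by rw [hp.inr_desc, hg]; exact q.paste_horiz r)
      (hp.inl_desc _ _ _).symm hp
  have hδw : weakEq δ := weakEq_pushout_mono i₁ x _ _ hδ hx
  have e : δ ≫ γ = y := by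
    apply hp.hom_ext
    · rw [hp.inl_desc_assoc, Category.assoc, r.inl_desc, h₁]
    · rw [hp.inr_desc_assoc, Category.assoc, r.inr_desc, ← Category.assoc, q.inr_desc, h₂]
  rw [← e]
  exact weakEq_comp hδw hγ

end Vale.Agent.P213.KQ
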