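import Vale.Agent.P213.Statement

/-!
# P213, classical input: homotopies and weak equivalences of simplicial sets

Elementary theory of `weakEq` (maps bijective on homotopy classes into every Kan complex).
-/

open CategoryTheory Limits MonoidalCategory CartesianMonoidalCategory MonoidalClosed Simplicial
  HomotopicalAlgebra Opposite
open SSet.modelCategoryQuillen

noncomputable section

namespace Vale.Agent.P213.KQ

variable {X Y Z K : SSet.{0}}

/-- The map to `Δ[0]`. -/
abbrev toPt (X : SSet.{0}) : X ⟶ Δ[0] := SSet.stdSimplex.isTerminalObj₀.from X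

/-- Trivial fibrations: lifting against all monomorphisms. -/
def TrivFib : MorphismProperty SSet.{0} := (MorphismProperty.monomorphisms SSet.{0}).rlp

theorem trivFib_iff {E B : SSet.{0}} (p : E ⟶ B) :
    TrivFib p ↔ SSet.modelCategoryQuillen.I.rlp p := by
  rw [TrivFib, SSet.rlp_monomorphisms]

/-! ## Kan complexes -/

theorem isKan_iff : IsKan K ↔ SSet.KanComplex K := by
  constructor
  · intro h
    exact (isFibrant_iff K).2 ((fibration_iff _).2 h)
  · intro h
    exact (fibration_iff _).1 ((isFibrant_iff K).1 h)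

theorem IsKan.kan (h : IsKan K) : SSet.KanComplex K := isKan_iff.1 h

/-! ## Homotopies -/

theorem htpc_iff {f g : X ⟶ K} :
    Htpc f g ↔ ∃ H : X ⊗ Δ[1] ⟶ K, SSet.ι₀ ≫ H = f ∧ SSet.ι₁ ≫ H = g := by
  constructor
  · rintro ⟨H⟩
    exact ⟨H.h, H.h₀, H.h₁⟩
  · rintro ⟨H, h₀, h₁⟩
    exact ⟨SSet.RelativeMorphism.Homotopy.mk H (by simpa [SSet.RelativeMorphism.botEquiv])
      (by simpa [SSet.RelativeMorphism.botEquiv]) (by ext n x; exact x.1.2.elim)⟩

theorem htpc_refl (f : X ⟶ K) : Htpc f f :=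
  htpc_iff.2 ⟨fst _ _ ≫ f, by simp, by simp⟩

theorem htpc_comp_right {f g : X ⟶ Y} (h : Htpc f g) (k : Y ⟶ K) : Htpc (f ≫ k) (g ≫ k) := by
  obtain ⟨H, h₀, h₁⟩ := htpc_iff.1 h
  exact htpc_iff.2 ⟨H ≫ k, by rw [← h₀, Category.assoc], by rw [← h₁, Category.assoc]⟩

theorem htpc_comp_left (a : X ⟶ Y) {f g : Y ⟶ K} (h : Htpc f g) : Htpc (a ≫ f) (a ≫ g) := by
  obtain ⟨H, h₀, h₁⟩ := htpc_iff.1 h
  exact htpc_iff.2 ⟨a ▷ Δ[1] ≫ H, by rw [SSet.ι₀_comp_assoc, h₀],
    by rw [SSet.ι₁_comp_assoc, h₁]⟩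

theorem ι₀_eq (X : SSet.{0}) :
    (SSet.ι₀ : X ⟶ X ⊗ Δ[1]) =
      lift (𝟙 X) (toPt X ≫ SSet.stdSimplex.δ (1 : Fin 2)) := by
  ext ⟨⟨m⟩⟩ x
  · rfl
  · rfl

theorem ι₁_eq (X : SSet.{0}) :
    (SSet.ι₁ : X ⟶ X ⊗ Δ[1]) =
      lift (𝟙 X) (toPt X ≫ SSet.stdSimplex.δ (0 : Fin 2)) := by
  ext ⟨⟨m⟩⟩ x
  · rfl
  · rfl

/-- A map as a point of the mapping space. -/
def pt (f : X ⟶ K) : Δ[0] ⟶ (ihom X).obj K := MonoidalClosed.curry (fst X Δ[0] ≫ f)

theorem lift_toPt_pt (f : X ⟶ K) :
    lift (𝟙 X) (toPt X) ≫ MonoidalClosed.uncurry (pt f) = f := by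
  rw [pt, MonoidalClosed.uncurry_curry, lift_fst_assoc, Category.id_comp]

theorem exists_pt (c : Δ[0] ⟶ (ihom X).obj K) : ∃ f, pt f = c := by
  refine ⟨lift (𝟙 X) (toPt X) ≫ MonoidalClosed.uncurry c, ?_⟩
  rw [pt, MonoidalClosed.curry_eq_iff, ← Category.assoc]
  convert Category.id_comp (MonoidalClosed.uncurry c) using 2
  apply CartesianMonoidalCategory.hom_ext
  · simp
  · exact SSet.stdSimplex.ext₀

theorem pt_injective : Function.Injective (pt : (X ⟶ K) → _) := fun f g h => by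
  rw [← lift_toPt_pt f, h, lift_toPt_pt g]

theorem whiskerLeft_δ₁ (X : SSet.{0}) :
    X ◁ SSet.stdSimplex.δ (1 : Fin 2) = fst X Δ[0] ≫ SSet.ι₀ := by
  rw [ι₀_eq]
  apply CartesianMonoidalCategory.hom_ext
  · simp
  · rw [whiskerLeft_snd, Category.assoc, lift_snd, ← Category.assoc]
    congr 1
    exact SSet.stdSimplex.ext₀

theorem whiskerLeft_δ₀ (X : SSet.{0}) :
    X ◁ SSet.stdSimplex.δ (0 : Fin 2) = fst X Δ[0] ≫ SSet.ι₁ := by
  rw [ι₁_eq]
  apply CartesianMonoidalCategory.hom_ext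
  · simp
  · rw [whiskerLeft_snd, Category.assoc, lift_snd, ← Category.assoc]
    congr 1
    exact SSet.stdSimplex.ext₀

theorem δ₁_curry (H : X ⊗ Δ[1] ⟶ K) :
    SSet.stdSimplex.δ (1 : Fin 2) ≫ MonoidalClosed.curry H = pt (SSet.ι₀ ≫ H) := by
  rw [← MonoidalClosed.curry_natural_left, whiskerLeft_δ₁, pt, Category.assoc]

theorem δ₀_curry (H : X ⊗ Δ[1] ⟶ K) :
    SSet.stdSimplex.δ (0 : Fin 2) ≫ MonoidalClosed.curry H = pt (SSet.ι₁ ≫ H) := by
  rw [← MonoidalClosed.curry_natural_left, whiskerLeft_δ₀, pt, Category.assoc]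

theorem htpc_iff_edge {f g : X ⟶ K} :
    Htpc f g ↔ ∃ e : Δ[1] ⟶ (ihom X).obj K,
      SSet.stdSimplex.δ (1 : Fin 2) ≫ e = pt f ∧ SSet.stdSimplex.δ (0 : Fin 2) ≫ e = pt g := by
  rw [htpc_iff]
  constructor
  · rintro ⟨H, rfl, rfl⟩
    exact ⟨MonoidalClosed.curry H, δ₁_curry H, δ₀_curry H⟩
  · rintro ⟨e, h₁, h₀⟩
    rw [← MonoidalClosed.curry_uncurry e, δ₁_curry] at h₁
    rw [← MonoidalClosed.curry_uncurry e, δ₀_curry] at h₀
    exact ⟨_, pt_injective h₁, pt_injective h₀⟩

/-- Filling of an outer horn. -/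
theorem exists_edge [SSet.KanComplex Z] (e₁ e₂ : Δ[1] ⟶ Z)
    (h : SSet.stdSimplex.δ (1 : Fin 2) ≫ e₁ = SSet.stdSimplex.δ (1 : Fin 2) ≫ e₂) :
    ∃ e : Δ[1] ⟶ Z, SSet.stdSimplex.δ (1 : Fin 2) ≫ e = SSet.stdSimplex.δ (0 : Fin 2) ≫ e₁ ∧
      SSet.stdSimplex.δ (0 : Fin 2) ≫ e = SSet.stdSimplex.δ (0 : Fin 2) ≫ e₂ := by
  obtain ⟨σ, hσ⟩ := SSet.KanComplex.hornFilling (SSet.horn₂₀.isPushout.desc e₁ e₂ h)
  have a : SSet.stdSimplex.δ (2 : Fin 3) ≫ σ = e₁ := by
    rw [← SSet.horn.ι_ι (0 : Fin 3) 2 (by decide), Category.assoc, ← hσ]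
    exact SSet.horn₂₀.isPushout.inl_desc _ _ _
  have b : SSet.stdSimplex.δ (1 : Fin 3) ≫ σ = e₂ := by
    rw [← SSet.horn.ι_ι (0 : Fin 3) 1 (by decide), Category.assoc, ← hσ]
    exact SSet.horn₂₀.isPushout.inr_desc _ _ _
  refine ⟨SSet.stdSimplex.δ (0 : Fin 3) ≫ σ, ?_, ?_⟩
  · rw [← a, ← Category.assoc, ← Category.assoc]
    congr 1
    exact (CosimplicialObject.δ_comp_δ SSet.stdSimplex (i := (0 : Fin 2)) (j := 1)
      (by decide)).symm
  · rw [← b, ← Category.assoc, ← Category.assoc]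
    congr 1

theorem htpc_cancel [SSet.KanComplex K] {f g h : X ⟶ K} (a : Htpc f g) (b : Htpc f h) :
    Htpc g h := by
  obtain ⟨e₁, a₁, a₀⟩ := htpc_iff_edge.1 a
  obtain ⟨e₂, b₁, b₀⟩ := htpc_iff_edge.1 b
  obtain ⟨e, c₁, c₀⟩ := exists_edge e₁ e₂ (a₁.trans b₁.symm)
  exact htpc_iff_edge.2 ⟨e, c₁.trans a₀, c₀.trans b₀⟩

theorem htpc_symm [SSet.KanComplex K] {f g : X ⟶ K} (a : Htpc f g) : Htpc g f :=
  htpc_cancel a (htpc_refl f)

theorem htpc_trans [SSet.KanComplex K] {f g h : X ⟶ K} (a : Htpc f g) (b : Htpc g h) :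
    Htpc f h :=
  htpc_cancel (htpc_symm a) b

/-- The homotopy classes. -/
abbrev cls (f : X ⟶ K) : Quot (Htpc (X := X) (K := K)) := Quot.mk _ f

theorem cls_eq_iff [SSet.KanComplex K] {f g : X ⟶ K} : cls f = cls g ↔ Htpc f g := by
  refine ⟨fun h => ?_, fun h => Quot.sound h⟩
  have e := Quot.eqvGen_exact h
  clear h
  induction e with
  | rel _ _ h => exact h
  | refl f => exact htpc_refl f
  | symm _ _ _ h => exact htpc_symm h
  | trans _ _ _ _ _ h h' => exact htpc_trans h h'

/-! ## Precomposition and weak equivalences -/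

theorem precompClass_mk (f : X ⟶ Y) (g : Y ⟶ K) : precompClass f K (cls g) = cls (f ≫ g) := rfl

theorem precompClass_id : precompClass (𝟙 X) K = id := by
  funext c
  induction c using Quot.ind with
  | mk g => exact congrArg cls (Category.id_comp g)

theorem precompClass_comp (f : X ⟶ Y) (g : Y ⟶ Z) :
    precompClass (f ≫ g) K = precompClass f K ∘ precompClass g K := by
  funext c
  induction c using Quot.ind with
  | mk k => exact congrArg cls (Category.assoc f g k)

theorem precompClass_eq_of_htpc {f g : X ⟶ Y} (h : Htpc f g) :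
    precompClass f K = precompClass g K := by
  funext c
  induction c using Quot.ind with
  | mk k => exact Quot.sound (htpc_comp_right h k)

theorem precompClass_eq_of_cls {f g : X ⟶ Y} (h : cls f = cls g) :
    precompClass f K = precompClass g K := by
  have e := Quot.eqvGen_exact h
  clear h
  induction e with
  | rel _ _ h => exact precompClass_eq_of_htpc h
  | refl => rfl
  | symm _ _ _ h => exact h.symm
  | trans _ _ _ _ _ h h' => exact h.trans h'

theorem weakEq_iff {f : X ⟶ Y} :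
    weakEq f ↔ ∀ (K : SSet.{0}) [SSet.KanComplex K],
      (∀ g : X ⟶ K, ∃ g' : Y ⟶ K, Htpc (f ≫ g') g) ∧
      ∀ g g' : Y ⟶ K, Htpc (f ≫ g) (f ≫ g') → Htpc g g' := by
  constructor
  · intro hf K hK
    obtain ⟨hi, hs⟩ := hf K (isKan_iff.2 hK)
    refine ⟨fun g => ?_, fun g g' h => cls_eq_iff.1 (hi (Quot.sound h))⟩
    obtain ⟨c, hc⟩ := hs (cls g)
    induction c using Quot.ind with
    | mk g' => exact ⟨g', cls_eq_iff.1 hc⟩
  · intro hf K hK
    have := IsKan.kan hK
    obtain ⟨hs, hi⟩ := hf K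
    refine ⟨fun a b h => ?_, fun c => ?_⟩
    · induction a using Quot.ind with
      | mk g =>
        induction b using Quot.ind with
        | mk g' => exact Quot.sound (hi g g' (cls_eq_iff.1 h))
    · induction c using Quot.ind with
      | mk g =>
        obtain ⟨g', hg'⟩ := hs g
        exact ⟨cls g', Quot.sound hg'⟩

theorem weakEq_of_isIso (f : X ⟶ Y) [IsIso f] : weakEq f := fun K _ => by
  refine Function.bijective_iff_has_inverse.2 ⟨precompClass (inv f) K, fun c => ?_, fun c => ?_⟩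
  · rw [← Function.comp_apply (f := precompClass (inv f) K), ← precompClass_comp,
      IsIso.inv_hom_id, precompClass_id, id_eq]
  · rw [← Function.comp_apply (f := precompClass f K), ← precompClass_comp,
      IsIso.hom_inv_id, precompClass_id, id_eq]

theorem weakEq_id (X : SSet.{0}) : weakEq (𝟙 X) := weakEq_of_isIso _

theorem weakEq_comp {f : X ⟶ Y} {g : Y ⟶ Z} (hf : weakEq f) (hg : weakEq g) :
    weakEq (f ≫ g) := fun K hK => by
  rw [precompClass_comp]
  exact (hf K hK).comp (hg K hK)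

theorem weakEq_of_comp_left {f : X ⟶ Y} {g : Y ⟶ Z} (hf : weakEq f) (h : weakEq (f ≫ g)) :
    weakEq g := fun K hK => by
  have := h K hK
  rw [precompClass_comp] at this
  exact ⟨this.1.of_comp, fun c => by
    obtain ⟨d, hd⟩ := this.2 (precompClass f K c)
    exact ⟨d, (hf K hK).1 hd⟩⟩

theorem weakEq_of_comp_right {f : X ⟶ Y} {g : Y ⟶ Z} (hg : weakEq g) (h : weakEq (f ≫ g)) :
    weakEq f := fun K hK => by
  have := h K hK
  rw [precompClass_comp] at this
  exact ⟨this.1.of_comp_right (hg K hK).2, this.2.of_comp⟩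

instance weakEq_two : weakEq.HasTwoOutOfThreeProperty where
  comp_mem _ _ hf hg := weakEq_comp hf hg
  of_precomp _ _ hf h := weakEq_of_comp_left hf h
  of_postcomp _ _ hg h := weakEq_of_comp_right hg h

instance weakEq_multiplicative : weakEq.IsMultiplicative where
  id_mem X := weakEq_id X

instance weakEq_respectsIso : weakEq.RespectsIso :=
  MorphismProperty.respectsIso_of_isStableUnderComposition fun _ _ f hf =>
    have : IsIso f := hf
    weakEq_of_isIso f

instance weakEq_retracts : weakEq.IsStableUnderRetracts where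
  of_retract {X Y X' Y' f f'} h hf K hK := by
    have hi : Function.Bijective (precompClass f' K) := hf K hK
    refine ⟨fun a b e => ?_, fun c => ?_⟩
    · have key : ∀ a, precompClass h.right.i K (precompClass h.right.r K a) = a := fun a => by
        rw [← Function.comp_apply (f := precompClass h.right.i K), ← precompClass_comp,
          h.right.retract, precompClass_id, id_eq]
      rw [← key a, ← key b]
      congr 1
      apply hi.1
      rw [← Function.comp_apply (f := precompClass f' K), ← precompClass_comp,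
        ← Function.comp_apply (f := precompClass f' K), ← precompClass_comp, ← (show h.left.r ≫ f = f' ≫ h.right.r from h.r_w),
        precompClass_comp, Function.comp_apply, Function.comp_apply, e]
    · obtain ⟨d, hd⟩ := hi.2 (precompClass h.left.r K c)
      refine ⟨precompClass h.right.i K d, ?_⟩
      rw [← Function.comp_apply (f := precompClass f K), ← precompClass_comp, ← (show h.left.i ≫ f' = f ≫ h.right.i from h.i_w),
        precompClass_comp, Function.comp_apply, hd,
        ← Function.comp_apply (f := precompClass h.left.i K), ← precompClass_comp,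
        h.left.retract, precompClass_id, id_eq]

/-- Two maps with homotopic composites to the identities are weak equivalences. -/
theorem weakEq_of_inverse (f : X ⟶ Y) (g : Y ⟶ X) (h₁ : cls (f ≫ g) = cls (𝟙 X))
    (h₂ : cls (g ≫ f) = cls (𝟙 Y)) : weakEq f := fun K _ => by
  refine Function.bijective_iff_has_inverse.2 ⟨precompClass g K, fun c => ?_, fun c => ?_⟩
  · rw [← Function.comp_apply (f := precompClass g K), ← precompClass_comp,
      precompClass_eq_of_cls h₂, precompClass_id, id_eq]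
  · rw [← Function.comp_apply (f := precompClass f K), ← precompClass_comp,
      precompClass_eq_of_cls h₁, precompClass_id, id_eq]

theorem weakEq_of_htpc {f g : X ⟶ Y} (h : Htpc f g) : weakEq f ↔ weakEq g := by
  simp only [weakEq, precompClass_eq_of_htpc h]

end Vale.Agent.P213.KQ
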