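import Vale.Agent.P213.KQ.Main

/-!
# P213, classical input: the statements of the Interface (section SSet, except `Ex`)
-/

open CategoryTheory Limits Simplicial HomotopicalAlgebra

noncomputable section

namespace Vale.Agent.P213

theorem weakEq_two : weakEq.HasTwoOutOfThreeProperty := KQ.weakEq_two

theorem weakEq_retracts : weakEq.IsStableUnderRetracts := KQ.weakEq_retracts

theorem weakEq_of_trivFib {X Y : SSet.{0}} (p : X ⟶ Y)
    (h : SSet.modelCategoryQuillen.I.rlp p) : weakEq p :=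
  KQ.weakEq_of_trivFib p ((KQ.trivFib_iff p).2 h)

theorem weakEq_pushout {A B X Y : SSet.{0}} (f : A ⟶ B) (g : A ⟶ X) (f' : X ⟶ Y) (g' : B ⟶ Y)
    (hp : IsPushout g f f' g') [Mono f] (hf : weakEq f) : weakEq f' :=
  KQ.weakEq_pushout f g f' g' hp hf

theorem weakEq_pushout_mono {A B X Y : SSet.{0}} (i : A ⟶ B) (g : A ⟶ X) (i' : X ⟶ Y)
    (g' : B ⟶ Y) (hp : IsPushout g i i' g') [Mono i] (hg : weakEq g) : weakEq g' :=
  KQ.weakEq_pushout_mono i g i' g' hp hg

theorem weakEq_transfinite :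
    MorphismProperty.IsStableUnderTransfiniteComposition.{0}
      (weakEq ⊓ MorphismProperty.monomorphisms SSet.{0}) := KQ.weakEq_transfinite

theorem weakEq_coproducts (J : Type) :
    (weakEq ⊓ MorphismProperty.monomorphisms SSet.{0}).IsStableUnderCoproductsOfShape J :=
  KQ.weakEq_coproducts J

theorem weakEq_horn {n : ℕ} {m : Fin (n + 2)} :
    weakEq (Λ[n + 1, m].ι : _ ⟶ (Δ[n + 1] : SSet.{0})) :=
  KQ.weakEq_horn

end Vale.Agent.P213
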