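import Vale.Agent.P213.KQ.Closure

/-!
# P213, classical input: fibrations that are weak equivalences
-/

open CategoryTheory Limits MonoidalCategory CartesianMonoidalCategory Simplicial
  HomotopicalAlgebra Opposite
open SSet.modelCategoryQuillen

noncomputable section

namespace Vale.Agent.P213.KQ

/-- The last vertex of a simplex. -/
def lastVertex (n : ℕ) : (Δ[0] : SSet.{0}) ⟶ Δ[n] :=
  SSet.const (SSet.stdSimplex.obj₀Equiv.symm (Fin.last n))

/-- The monotone map underlying the contraction of a simplex to its last vertex. -/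
def contractFun (n : ℕ) (a : Fin (n + 1) × Fin 2) : Fin (n + 1) :=
  if a.2 = 0 then a.1 else Fin.last n

theorem contractFun_mono (n : ℕ) : Monotone (contractFun n) := by
  rintro ⟨i, s⟩ ⟨j, t⟩ ⟨hij, hst⟩
  fin_cases s <;> fin_cases t
  · simpa [contractFun] using hij
  · simp [contractFun, Fin.le_last]
  · simp at hst
  · simp [contractFun]

/-- The contraction of a simplex to its last vertex. -/
def contract (n : ℕ) : (Δ[n] : SSet.{0}) ⊗ Δ[1] ⟶ Δ[n] where
  app m := ↾fun x => SSet.stdSimplex.objMk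
    ⟨fun k => contractFun n (SSet.stdSimplex.asOrderHom x.1 k, SSet.stdSimplex.asOrderHom x.2 k),
      fun _ _ h => contractFun_mono n
        ⟨(SSet.stdSimplex.asOrderHom x.1).monotone h, (SSet.stdSimplex.asOrderHom x.2).monotone h⟩⟩
  naturality _ _ _ := rfl

theorem ι₀_contract (n : ℕ) : SSet.ι₀ ≫ contract n = 𝟙 (Δ[n] : SSet.{0}) := by
  ext ⟨⟨m⟩⟩ x
  rfl

theorem ι₁_contract (n : ℕ) :
    SSet.ι₁ ≫ contract n = toPt (Δ[n] : SSet.{0}) ≫ lastVertex n := by
  ext ⟨⟨m⟩⟩ x
  rfl

/-- A fibration whose vertex fibres are trivially fibrant is a trivial fibration. -/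
theorem trivFib_of_fibres {E B : SSet.{0}} (p : E ⟶ B) [Fibration p]
    (h : ∀ (b : Δ[0] ⟶ B), TrivFib (pullback.snd p b)) : TrivFib p := by
  rw [trivFib_iff]
  rintro _ _ _ ⟨n⟩
  refine ⟨fun {u v} sq => ?_⟩
  let i : (∂Δ[n] : SSet.{0}) ⟶ Δ[n] := ∂Δ[n].ι
  have sq₀ : CommSq u (SSet.ι₀ : (∂Δ[n] : SSet.{0}) ⟶ _) p (i ▷ Δ[1] ≫ contract n ≫ v) :=
    ⟨by rw [SSet.ι₀_comp_assoc, ← Category.assoc SSet.ι₀, ι₀_contract, Category.id_comp]; exact sq.w⟩
  have := anodyne_ι₀ (∂Δ[n] : SSet.{0}) p (mem_fibrations p)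
  let G := sq₀.lift
  let b : Δ[0] ⟶ B := lastVertex n ≫ v
  have ha : (SSet.ι₁ ≫ G) ≫ p = toPt _ ≫ b := by
    rw [Category.assoc, sq₀.fac_right, SSet.ι₁_comp_assoc, ← Category.assoc SSet.ι₁, ι₁_contract,
      Category.assoc, ← Category.assoc i]
    congr 1
  have sq₁ : CommSq (pullback.lift (SSet.ι₁ ≫ G) (toPt _) ha) i (pullback.snd p b) (toPt _) :=
    ⟨SSet.stdSimplex.ext₀⟩
  have := h b i (MorphismProperty.monomorphisms.infer_property i)
  let a₂ : (Δ[n] : SSet.{0}) ⟶ E := sq₁.lift ≫ pullback.fst p b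
  have ha₂ : i ≫ a₂ = SSet.ι₁ ≫ G := by
    rw [← Category.assoc, sq₁.fac_left, pullback.lift_fst]
  have ha₂p : a₂ ≫ p = toPt _ ≫ b := by
    rw [Category.assoc, pullback.condition, ← Category.assoc, sq₁.fac_right]
  let po := Functor.PushoutObjObj.ofHasPushout (curriedTensor SSet.{0}) i
    (SSet.stdSimplex.δ (0 : Fin 2))
  have hc : i ▷ Δ[0] ≫ fst _ _ ≫ a₂ =
      (∂Δ[n] : SSet.{0}) ◁ SSet.stdSimplex.δ (0 : Fin 2) ≫ G := by
    rw [whiskerRight_fst_assoc, whiskerLeft_δ₀, Category.assoc, ha₂]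
  have sq₂ : CommSq (po.isPushout.desc (fst _ _ ≫ a₂) G hc) po.ι p (contract n ≫ v) := by
    constructor
    apply po.hom_ext
    · rw [IsPushout.inl_desc_assoc, po.inl_ι_assoc]
      change (fst _ _ ≫ a₂) ≫ p = Δ[n] ◁ _ ≫ contract n ≫ v
      rw [Category.assoc, ha₂p, whiskerLeft_δ₀, Category.assoc, ← Category.assoc SSet.ι₁,
        ι₁_contract, Category.assoc]
    · rw [IsPushout.inr_desc_assoc, po.inr_ι_assoc]
      exact sq₀.fac_right
  have := SSet.anodyneExtensions_pushoutObjObjι po (anodyne_vertex 0) p (mem_fibrations p)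
  refine ⟨⟨⟨SSet.ι₀ ≫ sq₂.lift, ?_, ?_⟩⟩⟩
  · have := po.inr_ι =≫ sq₂.lift
    rw [Category.assoc, sq₂.fac_left, IsPushout.inr_desc] at this
    change i ≫ SSet.ι₀ ≫ sq₂.lift = u
    rw [← SSet.ι₀_comp_assoc]
    exact (congrArg (SSet.ι₀ ≫ ·) this.symm).trans sq₀.fac_left
  · rw [Category.assoc, sq₂.fac_right, ← Category.assoc, ι₀_contract, Category.id_comp]

/-- A monomorphism that is a weak equivalence out of a Kan complex has a retraction. -/
theorem exists_retraction {X Y : SSet.{0}} [SSet.KanComplex X] (i : X ⟶ Y) [Mono i]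
    (hi : weakEq i) : ∃ r : Y ⟶ X, i ≫ r = 𝟙 X := by
  obtain ⟨r, hr⟩ := ((weakEq_iff.1 hi) X).1 (𝟙 X)
  obtain ⟨H, h₀, h₁⟩ := htpc_iff.1 hr
  obtain ⟨r', -, hr'⟩ := exists_htpc_extension i r H h₀
  exact ⟨r', hr'.trans h₁⟩

/-- The deduction of the main statement from a fibrant replacement functor. -/
theorem trivFib_of_replacement (R : SSet.{0} ⥤ SSet.{0}) (η : 𝟭 SSet.{0} ⟶ R)
    (hmono : ∀ X, Mono (η.app X)) (hwe : ∀ X, weakEq (η.app X))
    (hkan : ∀ X, SSet.KanComplex (R.obj X))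
    (hfib : ∀ ⦃E B : SSet.{0}⦄ (p : E ⟶ B), Fibration p → Fibration (R.map p))
    [PreservesLimitsOfShape WalkingCospan R] (hpt : IsIso (η.app (Δ[0] : SSet.{0})))
    {E B : SSet.{0}} (p : E ⟶ B) [Fibration p] (hw : weakEq p) : TrivFib p := by
  have := hkan E
  have := hkan B
  have := hfib p inferInstance
  have nat : ∀ {X Y : SSet.{0}} (f : X ⟶ Y), η.app X ≫ R.map f = f ≫ η.app Y :=
    fun f => (η.naturality f).symm
  have hq : TrivFib (R.map p) := by
    refine trivFib_of_weakEq_kan _ (weakEq_of_comp_left (hwe E) ?_)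
    rw [nat p]
    exact weakEq_comp hw (hwe B)
  refine trivFib_of_fibres p fun b => ?_
  have hsq := IsPullback.of_hasPullback p b
  have hs : TrivFib (R.map (pullback.snd p b)) :=
    MorphismProperty.of_isPullback (P := (MorphismProperty.monomorphisms SSet.{0}).rlp)
      (hsq.map R) hq
  have hF : Fibration (pullback.snd p b) := (SSet.modelCategoryQuillen.fibration_iff _).2
    (MorphismProperty.of_isPullback (P := SSet.modelCategoryQuillen.J.rlp) hsq
      ((SSet.modelCategoryQuillen.fibration_iff p).1 inferInstance))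
  have : SSet.KanComplex (pullback p b) := by
    have : IsIso (terminal.from (Δ[0] : SSet.{0})) :=
      isIso_of_isTerminal SSet.stdSimplex.isTerminalObj₀ terminalIsTerminal _
    rw [SSet.KanComplex, isFibrant_iff, show terminal.from (pullback p b) =
      pullback.snd p b ≫ terminal.from _ from terminalIsTerminal.hom_ext _ _]
    exact ⟨(fibrations SSet.{0}).comp_mem _ _ (mem_fibrations _) (mem_fibrations _)⟩
  have := hmono (pullback p b)
  obtain ⟨r, hr⟩ := exists_retraction (X := pullback p b) (η.app (pullback p b)) (hwe _)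
  have hret : RetractArrow (pullback.snd p b) (R.map (pullback.snd p b)) :=
    { i := Arrow.homMk (η.app _) (η.app _) (nat _)
      r := Arrow.homMk r (inv (η.app _)) SSet.stdSimplex.ext₀
      retract := by
        ext : 1
        · exact hr
        · exact IsIso.hom_inv_id (η.app (Δ[0] : SSet.{0})) }
  exact MorphismProperty.of_retract (P := (MorphismProperty.monomorphisms SSet.{0}).rlp) hret hs

end Vale.Agent.P213.KQ
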